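import Vale.Agent.Lib.P049.Defs

namespace Vale.Agent.Lib.P049

open Finset

/-- In a `d`-regular graph on `n` vertices every nonconstant eigenvalue `μ` satisfies
`|μ + 1| ≤ n - 1 - d`. -/
theorem abs_eig_add_one_le {V : Type*} [Fintype V] (G : SimpleGraph V)
    [DecidableRel G.Adj] (d : ℕ) (hG : G.IsRegularOfDegree d) (μ : ℝ) (v : V → ℝ)
    (hv : v ≠ 0) (hsum : ∑ i, v i = 0) (hev : (G.adjMatrix ℝ).mulVec v = μ • v) :
    |μ + 1| ≤ (Fintype.card V : ℝ) - 1 - d := by
  classical
  have hne : (univ : Finset V).Nonempty := by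
    by_contra h
    rw [Finset.not_nonempty_iff_eq_empty] at h
    apply hv
    funext i
    have : i ∈ (univ : Finset V) := mem_univ i
    rw [h] at this
    simp at this
  obtain ⟨i, -, hi⟩ := Finset.exists_max_image univ (fun j => |v j|) hne
  have hvi : 0 < |v i| := by
    by_contra h
    have h0 : |v i| = 0 := le_antisymm (not_lt.mp h) (abs_nonneg _)
    apply hv
    funext j
    have := hi j (mem_univ j)
    rw [h0] at this
    simpa using le_antisymm this (abs_nonneg _)
  have hrow : ∑ j ∈ G.neighborFinset i, v j = μ * v i := by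
    have := congrFun hev i
    rw [SimpleGraph.adjMatrix_mulVec_apply] at this
    simpa using this
  have hsplit : ∑ j, v j = v i + ∑ j ∈ G.neighborFinset i, v j
      + ∑ j ∈ (univ \ insert i (G.neighborFinset i)), v j := by
    have h1 : ∑ j, v j = ∑ j ∈ insert i (G.neighborFinset i), v j
        + ∑ j ∈ (univ \ insert i (G.neighborFinset i)), v j := by
      rw [add_comm]
      exact (Finset.sum_sdiff (subset_univ _)).symm
    rw [h1, Finset.sum_insert (by simp)]
  have hcard : ((univ \ insert i (G.neighborFinset i)).card : ℝ)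
      = (Fintype.card V : ℝ) - 1 - d := by
    rw [Finset.card_sdiff_of_subset (subset_univ _), Finset.card_insert_of_notMem (by simp)]
    have hdeg : (G.neighborFinset i).card = d := hG i
    rw [hdeg, Finset.card_univ]
    have hle : d + 1 ≤ Fintype.card V := by
      have := Finset.card_le_univ (insert i (G.neighborFinset i))
      rw [Finset.card_insert_of_notMem (by simp), hdeg] at this
      exact this
    rw [Nat.cast_sub hle]
    push_cast
    ring
  have hkey : (μ + 1) * v i = - ∑ j ∈ (univ \ insert i (G.neighborFinset i)), v j := by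
    rw [hsum, hrow] at hsplit
    linarith
  have hbound : |μ + 1| * |v i| ≤ ((Fintype.card V : ℝ) - 1 - d) * |v i| := by
    rw [← abs_mul, hkey, abs_neg, ← hcard]
    calc |∑ j ∈ (univ \ insert i (G.neighborFinset i)), v j|
        ≤ ∑ j ∈ (univ \ insert i (G.neighborFinset i)), |v j| := Finset.abs_sum_le_sum_abs _ _
      _ ≤ ∑ _j ∈ (univ \ insert i (G.neighborFinset i)), |v i| :=
          Finset.sum_le_sum (fun j _ => hi j (mem_univ j))
      _ = ((univ \ insert i (G.neighborFinset i)).card : ℝ) * |v i| := by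
          rw [Finset.sum_const, nsmul_eq_mul]
  exact le_of_mul_le_mul_right hbound hvi

/-- Every `d`-regular graph on at most `d + 2 * sqrt (d - 1)` vertices is Ramanujan. -/
theorem isRamanujan_of_card_le {V : Type*} [Fintype V] (G : SimpleGraph V)
    [DecidableRel G.Adj] (d : ℕ) (hG : G.IsRegularOfDegree d)
    (hn : (Fintype.card V : ℝ) ≤ d + 2 * Real.sqrt ((d : ℝ) - 1)) : IsRamanujan G d := by
  refine ⟨hG, fun μ v hv hsum hev => ?_⟩
  have h := abs_eig_add_one_le G d hG μ v hv hsum hev
  have h2 : |μ| ≤ |μ + 1| + 1 := by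
    calc |μ| = |(μ + 1) - 1| := by ring_nf
      _ ≤ |μ + 1| + |(1 : ℝ)| := abs_sub _ _
      _ = |μ + 1| + 1 := by simp
  linarith

end Vale.Agent.Lib.P049
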