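import Mathlib

namespace Vale.Agent.Lib.P049

/-- `IsRamanujan G d`: the simple graph `G` is `d`-regular and every eigenvalue of its
adjacency matrix that has a nonzero eigenvector orthogonal to the all-ones vector
(a nonconstant eigenvalue) has absolute value at most `2 * sqrt (d - 1)`. -/
def IsRamanujan {V : Type*} [Fintype V] (G : SimpleGraph V) [DecidableRel G.Adj]
    (d : ℕ) : Prop :=
  G.IsRegularOfDegree d ∧
    ∀ (μ : ℝ) (v : V → ℝ), v ≠ 0 → ∑ i, v i = 0 →
      (G.adjMatrix ℝ).mulVec v = μ • v → |μ| ≤ 2 * Real.sqrt ((d : ℝ) - 1)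

end Vale.Agent.Lib.P049
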